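import Crest.Agent.WLX.UNIter

/-!
Row 290 (B3): polynomial-time functions with values in binary, basic part.

`BN f`: the number-valued function `f : W → ℕ` is polynomial-time computable in binary
(least significant bit first, `Nat.bits`).
-/

set_option autoImplicit false

namespace Crest.Agent.WLD

open Crest.Agent.CHR Crest.Agent.WLX Crest.CountHier

/-- number-valued function computable in binary -/
def BN (f : W → ℕ) : Prop := PolyTime (fun z => Nat.bits (f z))

/-! ### values of strings -/

theorem val_append' (x y : W) : val (x ++ y) = val x + 2 ^ x.length * val y := by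
  induction x with
  | nil => simp [val]
  | cons b x ih => simp only [List.cons_append, val, ih, List.length_cons]; ring

theorem val_take (l : W) (i : ℕ) : val (l.take i) = val l % 2 ^ i := by
  have h1 := val_append' (l.take i) (l.drop i)
  rw [List.take_append_drop] at h1
  by_cases h : i ≤ l.length
  · have h2 : (l.take i).length = i := by simp [h]
    have h3 := val_lt (l.take i)
    rw [h2] at h1 h3
    rw [h1, Nat.add_mul_mod_self_left, Nat.mod_eq_of_lt h3]
  · push Not at h
    rw [List.take_of_length_le h.le]
    rw [Nat.mod_eq_of_lt]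
    exact lt_of_lt_of_le (val_lt l) (Nat.pow_le_pow_right (by norm_num) h.le)

theorem val_drop (l : W) (i : ℕ) : val (l.drop i) = val l / 2 ^ i := by
  have h1 := val_append' (l.take i) (l.drop i)
  rw [List.take_append_drop] at h1
  by_cases h : i ≤ l.length
  · have h2 : (l.take i).length = i := by simp [h]
    have h3 := val_lt (l.take i)
    rw [h2] at h1 h3
    rw [h1, Nat.add_mul_div_left _ _ (by positivity), Nat.div_eq_of_lt h3, Nat.zero_add]
  · push Not at h
    rw [List.drop_eq_nil_of_le h.le]
    rw [Nat.div_eq_of_lt]
    · rfl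
    · exact lt_of_lt_of_le (val_lt l) (Nat.pow_le_pow_right (by norm_num) h.le)

theorem val_testBit (l : W) (i : ℕ) : (val l).testBit i = l.getD i false := by
  induction l generalizing i with
  | nil => simp [val]
  | cons b l ih =>
    cases i with
    | zero =>
      rw [val, Nat.testBit_zero]
      cases b <;> simp <;> omega
    | succ i =>
      rw [val, Nat.testBit_succ]
      have : (b.toNat + 2 * val l) / 2 = val l := by cases b <;> simp <;> omega
      rw [this, ih]
      simp

theorem val_bitTable (N n : ℕ) :
    val ((List.range n).map (fun i => N.testBit i)) = N % 2 ^ n := by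
  apply Nat.eq_of_testBit_eq
  intro i
  rw [val_testBit, Nat.testBit_mod_two_pow]
  by_cases h : i < n
  · simp [h]
  · simp [h]

/-! ### closure properties -/

theorem BN.congr {f g : W → ℕ} (hf : BN f) (h : ∀ w, f w = g w) : BN g := by
  have : g = f := by funext w; exact (h w).symm
  rw [this]; exact hf

theorem BN.comp {f : W → ℕ} {g : W → W} (hf : BN f) (hg : PolyTime g) :
    BN (fun w => f (g w)) :=
  PT.comp (g := fun w => Nat.bits (f w)) hf hg

theorem BN.fst {f : W → ℕ} (hf : BN f) : BN (fun z => f (fstB z)) := hf.comp PT.fst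

theorem BN.const (c : ℕ) : BN (fun _ => c) := PT.const (Nat.bits c)

/-- value of a polynomial-time computable string -/
theorem BN.ofVal {g : W → W} (hg : PolyTime g) : BN (fun z => val (g z)) := PT.norm hg

theorem BN.ofUN {f : W → ℕ} (hf : UN f) : BN f := by
  have h := PT.lenBin hf
  refine PT.congr h fun w => ?_
  simp

theorem BN.lt {f g : W → ℕ} (hf : BN f) (hg : BN g) : UP (fun w => f w < g w) := by
  classical
  have h := PTP.lt hf hg
  refine PTP.congr h fun w => ?_
  simp

theorem BN.le {f g : W → ℕ} (hf : BN f) (hg : BN g) : UP (fun w => f w ≤ g w) :=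
  (BN.lt hg hf).not.congr fun w => by omega

theorem BN.eq {f g : W → ℕ} (hf : BN f) (hg : BN g) : UP (fun w => f w = g w) :=
  ((BN.le hf hg).and (BN.le hg hf)).congr fun w => by omega

open Classical in
theorem BN.ite {p : W → Prop} {f g : W → ℕ} (hp : UP p) (hf : BN f) (hg : BN g) :
    BN (fun w => if p w then f w else g w) := by
  have h := PT.iteP hp hf hg
  refine PT.congr h fun w => ?_
  by_cases h : p w <;> simp [h]

theorem BN.testBit {f i : W → ℕ} (hf : BN f) (hi : UN i) :
    UP (fun w => (f w).testBit (i w) = true) :=
  (UP.bit hf hi).congr fun w => by rw [← val_testBit, val_bits]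

/-- bits given by a polynomial-time predicate -/
theorem BN.ofBits {N : W → ℕ} {F : W → ℕ} (hN : UN N)
    (hP : UP (fun z => (F (fstB z)).testBit (sndB z).length = true)) :
    BN (fun w => F w % 2 ^ N w) := by
  have h := BN.ofVal (PT.tab (N := N) (P := fun w i => (F w).testBit i = true) hN hP)
  refine h.congr fun w => ?_
  rw [← val_bitTable]
  congr 1
  apply List.map_congr_left
  intro i _
  simp

theorem BN.ofBits' {N : W → ℕ} {F : W → ℕ} (hN : UN N) (hlt : ∀ w, F w < 2 ^ N w)
    (hP : UP (fun z => (F (fstB z)).testBit (sndB z).length = true)) : BN F :=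
  (BN.ofBits hN hP).congr fun w => Nat.mod_eq_of_lt (hlt w)

theorem BN.modPow {f g : W → ℕ} (hf : BN f) (hg : UN g) : BN (fun w => f w % 2 ^ g w) := by
  have h := BN.ofVal (PT.take hf hg)
  refine h.congr fun w => ?_
  rw [val_take, val_bits, un_length]

theorem BN.divPow {f g : W → ℕ} (hf : BN f) (hg : UN g) : BN (fun w => f w / 2 ^ g w) := by
  have h := BN.ofVal (PT.drop hf hg)
  refine h.congr fun w => ?_
  rw [val_drop, val_bits, un_length]

/-- number of bits, in unary -/
theorem BN.size {f : W → ℕ} (hf : BN f) : UN (fun w => (Nat.bits (f w)).length) := UN.len hf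

theorem lt_two_pow_bits (n : ℕ) : n < 2 ^ (Nat.bits n).length := by
  have := val_lt (Nat.bits n)
  rwa [val_bits] at this

theorem bits_length_le {n k : ℕ} (h : n < 2 ^ k) : (Nat.bits n).length ≤ k := by
  rw [Nat.size_eq_bits_len, Nat.size_le]
  exact h

open Classical in
/-- bounded conversion from binary to unary -/
theorem UN.minBN {f B : W → ℕ} (hf : BN f) (hB : UN B) :
    UN (fun w => Min.min (f w) (B w)) := by
  have h1 : UP (fun z => (sndB z).length < f (fstB z)) := BN.lt (BN.ofUN UN.var) hf.fst
  have h2 := UN.card (P := fun w i => i < f w) hB h1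
  refine h2.congr fun w => ?_
  have h3 : (Finset.range (B w)).filter (fun i => i < f w) = Finset.range (Min.min (f w) (B w)) := by
    ext i
    simp only [Finset.mem_filter, Finset.mem_range, lt_min_iff]
    tauto
  have h4 := congrArg Finset.card h3
  rw [Finset.card_range] at h4
  rw [← h4]
  congr

/-- bit strings -/
theorem PT.unI {f : W → ℕ} (hf : UN f) : PolyTime (fun w => un (f w)) := hf

end Crest.Agent.WLD
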