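import Crest.Agent.WLD.BN

/-! Row 290 (B3), CHUNK R290-R-ADD: addition in binary is polynomial-time.

PROOF IDEA. `N w = (Nat.bits (f w)).length + (Nat.bits (g w)).length + 1` (UN), `f w + g w < 2 ^ N w`;
`BN.ofBits'` with `F w = f w + g w`: `(a + b).testBit i = (a.testBit i ^^ b.testBit i) ^^ carry`,
`carry ↔ 2 ^ i ≤ a % 2 ^ i + b % 2 ^ i` (write `(a + b) / 2 ^ i = a / 2 ^ i + b / 2 ^ i + c`,
`Nat.add_div`).  The carry is a UP predicate of the context `z` (`i = (sndB z).length`):
`2 ^ i ≤ A + B ↔ val (complement of the first i bits of a) < B` where the complement string is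
`PT.tab` of `¬ testBit`, value `2 ^ i - 1 - A` (`A = a % 2 ^ i`, `B = b % 2 ^ i`, `BN.modPow`).
(Or: any other way, e.g. digit-by-digit iteration with `PT.iter`.) -/

set_option autoImplicit false

namespace Crest.Agent.WLD

open Crest.Agent.CHR Crest.Agent.WLX Crest.CountHier

/-- the value of the complement string -/
theorem val_compl (a i : ℕ) :
    val ((List.range i).map
      (fun j => @decide (¬ a.testBit j = true) (Classical.propDecidable _))) =
      2 ^ i - (a % 2 ^ i + 1) := by
  apply Nat.eq_of_testBit_eq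
  intro j
  rw [val_testBit, Nat.testBit_two_pow_sub_succ (Nat.mod_lt _ (by positivity)),
    Nat.testBit_mod_two_pow]
  by_cases h : j < i
  · simp [h]
  · simp [h]

/-- binary digits of a sum -/
theorem testBit_add_iff (a b i : ℕ) :
    (a + b).testBit i = true ↔
      (a.testBit i = true ↔ (b.testBit i = true ↔ 2 ^ i - (a % 2 ^ i + 1) < b % 2 ^ i)) := by
  have hpos : 0 < 2 ^ i := by positivity
  have hA : a % 2 ^ i < 2 ^ i := Nat.mod_lt _ hpos
  have hB : b % 2 ^ i < 2 ^ i := Nat.mod_lt _ hpos
  have key := Nat.add_div (a := a) (b := b) hpos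
  rw [Nat.testBit_eq_decide_div_mod_eq, Nat.testBit_eq_decide_div_mod_eq,
    Nat.testBit_eq_decide_div_mod_eq, key]
  simp only [decide_eq_true_eq]
  by_cases hc : 2 ^ i ≤ a % 2 ^ i + b % 2 ^ i
  · have h2 : 2 ^ i - (a % 2 ^ i + 1) < b % 2 ^ i := by omega
    rw [if_pos hc]
    simp only [h2, iff_true]
    omega
  · have h2 : ¬ 2 ^ i - (a % 2 ^ i + 1) < b % 2 ^ i := by omega
    rw [if_neg hc]
    simp only [h2, iff_false]
    omega

theorem BN.add {f g : W → ℕ} (hf : BN f) (hg : BN g) : BN (fun w => f w + g w) := by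
  classical
  have hN : UN (fun w => (Nat.bits (f w)).length + (Nat.bits (g w)).length + 1) :=
    ((BN.size hf).add (BN.size hg)).add (UN.const 1)
  refine BN.ofBits' (F := fun w => f w + g w) hN (fun w => ?_) ?_
  · have h1 := lt_two_pow_bits (f w)
    have h2 := lt_two_pow_bits (g w)
    have h3 : 2 ^ (Nat.bits (f w)).length ≤
        2 ^ ((Nat.bits (f w)).length + (Nat.bits (g w)).length) :=
      Nat.pow_le_pow_right (by norm_num) (by omega)
    have h4 : 2 ^ (Nat.bits (g w)).length ≤
        2 ^ ((Nat.bits (f w)).length + (Nat.bits (g w)).length) :=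
      Nat.pow_le_pow_right (by norm_num) (by omega)
    show f w + g w < 2 ^ ((Nat.bits (f w)).length + (Nat.bits (g w)).length + 1)
    rw [pow_succ]
    omega
  · have ha : UP (fun z => (f (fstB z)).testBit (sndB z).length = true) :=
      BN.testBit hf.fst UN.var
    have hb : UP (fun z => (g (fstB z)).testBit (sndB z).length = true) :=
      BN.testBit hg.fst UN.var
    have htab := PT.tab (N := fun z => (sndB z).length)
        (P := fun z j => ¬ (f (fstB z)).testBit j = true) UN.var
        (BN.testBit hf.fst.fst UN.var).not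
    have hc : UP (fun z => 2 ^ (sndB z).length - (f (fstB z) % 2 ^ (sndB z).length + 1) <
        g (fstB z) % 2 ^ (sndB z).length) := by
      refine (BN.lt (BN.ofVal htab) (BN.modPow hg.fst UN.var)).congr fun z => ?_
      have e := val_compl (f (fstB z)) (sndB z).length
      rw [← e]
    refine (ha.iff (hb.iff hc)).congr fun z => ?_
    exact (testBit_add_iff _ _ _).symm

end Crest.Agent.WLD
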