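import Crest.Agent.WLD.BN

/-! Row 290 (B3), CHUNK R290-R-BIT: bitwise operations and shifts in binary.

PROOF IDEA. `BN.ofBits'` with `N w` = sum of the numbers of bits, `Nat.testBit_and`/`or`/`xor`,
bounds `Nat.and_lt_two_pow`, `Nat.or_lt_two_pow`, `Nat.xor_lt_two_pow`. `mulPow`: string
`(List.replicate (g w) false) ++ Nat.bits (f w)` (get the replicate as a `PT.tab` of `False` or by
`PT.tab`), `BN.ofVal`, `val_append'`. -/

set_option autoImplicit false

namespace Crest.Agent.WLD

open Crest.Agent.CHR Crest.Agent.WLX Crest.CountHier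

private theorem lt_two_pow_add_left (a b : ℕ) :
    a < 2 ^ ((Nat.bits a).length + b) :=
  lt_of_lt_of_le (lt_two_pow_bits a) (Nat.pow_le_pow_right (by norm_num) (Nat.le_add_right _ _))

private theorem lt_two_pow_add_right (a b : ℕ) :
    a < 2 ^ (b + (Nat.bits a).length) :=
  lt_of_lt_of_le (lt_two_pow_bits a) (Nat.pow_le_pow_right (by norm_num) (Nat.le_add_left _ _))

theorem BN.land {f g : W → ℕ} (hf : BN f) (hg : BN g) : BN (fun w => f w &&& g w) := by
  refine BN.ofBits' (N := fun w => (Nat.bits (f w)).length + (Nat.bits (g w)).length)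
    (UN.add hf.size hg.size) (fun w => ?_) ?_
  · exact Nat.and_lt_two_pow _ (lt_two_pow_add_right _ _)
  · refine ((BN.testBit hf.fst UN.var).and (BN.testBit hg.fst UN.var)).congr fun z => ?_
    simp only [Nat.testBit_and, Bool.and_eq_true]

theorem BN.lor {f g : W → ℕ} (hf : BN f) (hg : BN g) : BN (fun w => f w ||| g w) := by
  refine BN.ofBits' (N := fun w => (Nat.bits (f w)).length + (Nat.bits (g w)).length)
    (UN.add hf.size hg.size) (fun w => ?_) ?_
  · exact Nat.or_lt_two_pow (lt_two_pow_add_left _ _) (lt_two_pow_add_right _ _)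
  · refine ((BN.testBit hf.fst UN.var).or (BN.testBit hg.fst UN.var)).congr fun z => ?_
    simp only [Nat.testBit_or, Bool.or_eq_true]

theorem BN.lxor {f g : W → ℕ} (hf : BN f) (hg : BN g) : BN (fun w => f w ^^^ g w) := by
  refine BN.ofBits' (N := fun w => (Nat.bits (f w)).length + (Nat.bits (g w)).length)
    (UN.add hf.size hg.size) (fun w => ?_) ?_
  · exact Nat.xor_lt_two_pow (lt_two_pow_add_left _ _) (lt_two_pow_add_right _ _)
  · refine (((BN.testBit hf.fst UN.var).iff (BN.testBit hg.fst UN.var)).not).congr fun z => ?_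
    simp only [Nat.testBit_xor]
    cases (f (fstB z)).testBit (sndB z).length <;> cases (g (fstB z)).testBit (sndB z).length <;>
      simp

/-- multiplication by a power of two with unary exponent -/
theorem BN.mulPow {f g : W → ℕ} (hf : BN f) (hg : UN g) : BN (fun w => f w * 2 ^ g w) := by
  refine BN.ofBits' (N := fun w => (Nat.bits (f w)).length + g w)
    (UN.add hf.size hg) (fun w => ?_) ?_
  · rw [pow_add]
    exact Nat.mul_lt_mul_of_pos_right (lt_two_pow_bits _) (by positivity)
  · refine ((UP.le hg.fst UN.var).and (BN.testBit hf.fst (UN.sub UN.var hg.fst))).congr fun z => ?_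
    rw [Nat.testBit_mul_two_pow]
    simp only [Bool.and_eq_true, decide_eq_true_eq]

end Crest.Agent.WLD
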