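import Crest.Agent.WLD.BNAdd

/-! Row 290 (B3), CHUNK R290-R-MUL: multiplication in binary is polynomial-time (uses `BN.add`).

`PT.iterS` (WLX/UNIter.lean) with the state `T = pairBits (un j) acc`, `j` steps done: we iterate
over the bits of `g w` from the most significant one: after `j` steps
`val acc = f w * (g w / 2 ^ (L - j))`, `L = (Nat.bits (g w)).length`,
step: `acc' = 2 * acc + (if (g w).testBit (L - 1 - j) then f w else 0)`.
Length bound: `acc < 2 ^ (number of bits of f w + number of bits of g w)`, `bits_length_le`. -/

set_option autoImplicit false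

namespace Crest.Agent.WLD

open Crest.Agent.CHR Crest.Agent.WLX Crest.CountHier

theorem div_two_pow_step (g m : ℕ) :
    g / 2 ^ m = 2 * (g / 2 ^ (m + 1)) + (if g.testBit m = true then 1 else 0) := by
  have h1 : g / 2 ^ (m + 1) = g / 2 ^ m / 2 := by rw [pow_succ, Nat.div_div_eq_div_mul]
  have h2 : g.testBit m = decide (g / 2 ^ m % 2 = 1) := Nat.testBit_eq_decide_div_mod_eq
  rw [h1, h2]
  by_cases h : g / 2 ^ m % 2 = 1
  · rw [if_pos (by simpa using h)]; omega
  · rw [if_neg (by simpa using h)]; omega

theorem BN.mul {f g : W → ℕ} (hf : BN f) (hg : BN g) : BN (fun w => f w * g w) := by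
  have hL : UN (fun w => (Nat.bits (g w)).length) := BN.size hg
  have hK : UN (fun w => (Nat.bits (f w)).length) := BN.size hf
  obtain ⟨q1, hq1⟩ := hL.bound
  obtain ⟨q2, hq2⟩ := hK.bound
  -- the step
  have hj : UN (fun z => (fstB (sndB z)).length) :=
    UN.len (PT.comp PT.fst PT.snd)
  have hbit : UP (fun z => (g (fstB z)).testBit
      ((Nat.bits (g (fstB z))).length - 1 - (fstB (sndB z)).length) = true) :=
    BN.testBit hg.fst ((hL.fst.sub (UN.const 1)).sub hj)
  have hacc : BN (fun z => val (sndB (sndB z))) := BN.ofVal (PT.comp PT.snd PT.snd)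
  have hnew : BN (fun z => val (sndB (sndB z)) + val (sndB (sndB z)) +
      (if (g (fstB z)).testBit
        ((Nat.bits (g (fstB z))).length - 1 - (fstB (sndB z)).length) = true
        then f (fstB z) else 0)) :=
    BN.add (BN.add hacc hacc)
      ((BN.ite hbit hf.fst (BN.const 0)).congr fun z => by congr)
  have hstep : PolyTime (fun z => pairBits (fstB (sndB z) ++ [true])
      (Nat.bits (val (sndB (sndB z)) + val (sndB (sndB z)) +
      (if (g (fstB z)).testBit
        ((Nat.bits (g (fstB z))).length - 1 - (fstB (sndB z)).length) = true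
        then f (fstB z) else 0)))) :=
    PT.pair (PT.append (PT.comp PT.fst PT.snd) (PT.const [true])) hnew
  have hit : ∀ (w : W) (k : ℕ), k ≤ (Nat.bits (g w)).length →
      (fun T => pairBits (fstB (sndB (pairBits w T)) ++ [true])
        (Nat.bits (val (sndB (sndB (pairBits w T))) + val (sndB (sndB (pairBits w T))) +
        (if (g (fstB (pairBits w T))).testBit
          ((Nat.bits (g (fstB (pairBits w T)))).length - 1 -
            (fstB (sndB (pairBits w T))).length) = true
          then f (fstB (pairBits w T)) else 0))))^[k] (pairBits [] []) =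
      pairBits (un k) (Nat.bits (f w * (g w / 2 ^ ((Nat.bits (g w)).length - k)))) := by
    intro w k
    induction k with
    | zero =>
      intro _
      rw [Nat.sub_zero, Nat.div_eq_of_lt (lt_two_pow_bits _), Nat.mul_zero]
      simp [un]
    | succ k ih =>
      intro hk
      rw [Function.iterate_succ_apply', ih (by omega)]
      simp only [fstB_pairBits, sndB_pairBits, un_length, val_bits]
      congr 1
      · simp [un, List.replicate_succ']
      · congr 1
        have e1 : (Nat.bits (g w)).length - k = ((Nat.bits (g w)).length - 1 - k) + 1 := by omega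
        have e2 : (Nat.bits (g w)).length - (k + 1) = (Nat.bits (g w)).length - 1 - k := by omega
        rw [e1, e2, div_two_pow_step (g w) ((Nat.bits (g w)).length - 1 - k)]
        split_ifs <;> ring
  have h := PT.iterS hstep (PT.const (pairBits [] [])) hL
    (Polynomial.C 2 * q1 + 1 + (q2 + q1))
    (fun w k hk => by
      rw [hit w k hk, pairBits_length', un_length]
      have h1 := hq1 w
      have h2 := hq2 w
      have h3 : (Nat.bits (f w * (g w / 2 ^ ((Nat.bits (g w)).length - k)))).length ≤
          (Nat.bits (f w)).length + (Nat.bits (g w)).length := by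
        refine bits_length_le ?_
        have ha := lt_two_pow_bits (f w)
        have hb := lt_two_pow_bits (g w)
        have hc : g w / 2 ^ ((Nat.bits (g w)).length - k) ≤ g w := Nat.div_le_self _ _
        calc f w * (g w / 2 ^ ((Nat.bits (g w)).length - k)) ≤ f w * g w :=
              Nat.mul_le_mul_left _ hc
          _ < 2 ^ (Nat.bits (f w)).length * 2 ^ (Nat.bits (g w)).length :=
              Nat.mul_lt_mul'' ha hb
          _ = _ := (pow_add _ _ _).symm
      simp only [Polynomial.eval_add, Polynomial.eval_mul, Polynomial.eval_C,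
        Polynomial.eval_one]
      omega)
  have h' := PT.comp PT.snd h
  refine PT.congr h' fun w => ?_
  rw [hit w _ le_rfl, sndB_pairBits, Nat.sub_self, pow_zero, Nat.div_one]

end Crest.Agent.WLD
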