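import Crest.Agent.WLD.BNSub
import Crest.Agent.WLD.BNMul

/-! Row 290 (B3), CHUNK R290-R-DIV: division and remainder in binary (use `BN.add`, `BN.sub`,
`BN.mul`).

PROOF IDEA. Greedy search for the quotient: `L = (Nat.bits (f w)).length`; state `acc` = the `j` top
digits found so far (as a bit string, least significant first), candidate
`q = val (List.replicate (L - 1 - acc.length) false ++ (true :: acc))`; if `q * g w ≤ f w`
then `true :: acc` else `false :: acc`; after `L` steps `val acc = f w / g w` (if `0 < g w`;
otherwise the value is `0`: `BN.ite`). `PT.iterS`. Then `f % g = f - g * (f / g)`. -/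

set_option autoImplicit false

namespace Crest.Agent.WLD

open Crest.Agent.CHR Crest.Agent.WLX Crest.CountHier

theorem val_zeros_append (n : ℕ) (x : W) :
    val ((List.range n).map (fun _ => false) ++ x) = 2 ^ n * val x := by
  have h0 : val ((List.range n).map (fun _ => false)) = 0 := by
    have h := val_bitTable 0 n
    simpa using h
  rw [val_append', h0]
  simp

/-- one greedy step on the level of numbers -/
theorem div_step (a b r : ℕ) (hb : 0 < b) :
    a / b / 2 ^ r
      = (if 2 ^ r * (1 + 2 * (a / b / 2 ^ (r + 1))) * b ≤ a then 1 else 0)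
          + 2 * (a / b / 2 ^ (r + 1)) := by
  have h0 : ∀ x, x * b ≤ a ↔ x ≤ a / b := fun x => (Nat.le_div_iff_mul_le hb).symm
  simp only [h0]
  generalize a / b = q
  have h1 : q / 2 ^ (r + 1) = q / 2 ^ r / 2 := by
    rw [pow_succ, Nat.div_div_eq_div_mul]
  have h2 : (2 ^ r * (1 + 2 * (q / 2 ^ (r + 1))) ≤ q) ↔
      1 + 2 * (q / 2 ^ (r + 1)) ≤ q / 2 ^ r := by
    rw [Nat.le_div_iff_mul_le (Nat.two_pow_pos r), Nat.mul_comm]
  rw [h1] at h2 ⊢
  simp only [h2]
  split_ifs with h
  · omega
  · omega

theorem BN.div {f g : W → ℕ} (hf : BN f) (hg : BN g) : BN (fun w => f w / g w) := by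
  classical
  set L : W → ℕ := fun w => (Nat.bits (f w)).length with hL
  have hLU : UN L := BN.size hf
  set cand : W → W := fun z =>
    (List.range (L (fstB z) - 1 - (sndB z).length)).map (fun _ => false) ++ ([true] ++ sndB z)
    with hcand
  have hcandPT : PolyTime cand := by
    have h0 : UP (fun z => (fun (_ : W) (_ : ℕ) => False) (fstB z) (sndB z).length) :=
      UP.const False
    have hN : UN (fun z => L (fstB z) - 1 - (sndB z).length) :=
      ((hLU.fst.sub (UN.const 1)).sub UN.var)
    have h := PT.append (PT.tab (P := fun _ _ => False) hN h0)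
      (PT.append (PT.const [true]) PT.snd)
    refine PT.congr h fun z => ?_
    simp [hcand]
  have hcond : UP (fun z => val (cand z) * g (fstB z) ≤ f (fstB z)) :=
    BN.le (BN.mul (BN.ofVal hcandPT) hg.fst) hf.fst
  set s : W → W := fun z =>
    if val (cand z) * g (fstB z) ≤ f (fstB z) then [true] ++ sndB z else [false] ++ sndB z
    with hs
  have hsPT : PolyTime s := by
    refine PT.congr (PT.iteP hcond (PT.append (PT.const [true]) PT.snd)
      (PT.append (PT.const [false]) PT.snd)) fun z => ?_
    simp only [hs]
    split_ifs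
    · rfl
    · rfl
  have hsl : ∀ z, (s z).length = (sndB z).length + 1 := by
    intro z
    simp only [hs]
    split_ifs
    · simp
    · simp
  have hsv : ∀ z, val (s z)
      = (if val (cand z) * g (fstB z) ≤ f (fstB z) then 1 else 0) + 2 * val (sndB z) := by
    intro z
    simp only [hs]
    split_ifs
    · rfl
    · rfl
  have hlen : ∀ (w : W) (k : ℕ), ((fun T => s (pairBits w T))^[k] []).length = k := by
    intro w k
    induction k with
    | zero => rfl
    | succ k ih =>
      rw [Function.iterate_succ_apply', hsl, sndB_pairBits, ih]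
  have hval : ∀ (w : W), 0 < g w → ∀ k, k ≤ L w →
      val ((fun T => s (pairBits w T))^[k] []) = f w / g w / 2 ^ (L w - k) := by
    intro w hg0 k
    induction k with
    | zero =>
      intro _
      have h1 : f w < 2 ^ L w := lt_two_pow_bits (f w)
      have h2 : f w / g w ≤ f w := Nat.div_le_self _ _
      rw [Nat.sub_zero, Nat.div_eq_of_lt (lt_of_le_of_lt h2 h1)]
      rfl
    | succ k ih =>
      intro hk
      have ih' := ih (by omega)
      have hl := hlen w k
      rw [Function.iterate_succ_apply']
      set T := (fun T => s (pairBits w T))^[k] [] with hT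
      have h1 : L w - k = (L w - (k + 1)) + 1 := by omega
      have hc : val (cand (pairBits w T)) = 2 ^ (L w - (k + 1)) * (1 + 2 * val T) := by
        simp only [hcand, fstB_pairBits, sndB_pairBits, val_zeros_append, hl]
        have e : L w - 1 - k = L w - (k + 1) := by omega
        rw [e]
        rfl
      rw [div_step (f w) (g w) (L w - (k + 1)) hg0, ← h1, ← ih', ← hc, hsv, fstB_pairBits,
        sndB_pairBits]
  obtain ⟨q, hq⟩ := hLU.bound
  have hit : PolyTime (fun w => (fun T => s (pairBits w T))^[L w] []) :=
    PT.iterS hsPT (PT.const []) hLU q (fun w k hk => by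
      rw [hlen]; exact hk.trans (hq w))
  refine (BN.ite (BN.lt (BN.const 0) hg) (BN.ofVal hit) (BN.const 0)).congr fun w => ?_
  split_ifs with h
  · rw [hval w h (L w) le_rfl]
    simp
  · have : g w = 0 := by omega
    rw [this, Nat.div_zero]

theorem BN.mod {f g : W → ℕ} (hf : BN f) (hg : BN g) : BN (fun w => f w % g w) :=
  (BN.sub hf (BN.mul hg (BN.div hf hg))).congr fun w => by
    have := Nat.div_add_mod (f w) (g w)
    omega

end Crest.Agent.WLD
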