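import Crest.Agent.WLD.BN

/-! Row 290 (B3), CHUNK R290-R-LK: association lists.

An association list is `[]` or `pairBits (key) (pairBits (value) rest)`; key and value are compared
through `val`.

PROOF IDEA for `BN.lk`. `PT.iterS` / `PT.iter` with the state
`pairBits out A` (`out = []`: not found yet; `out = true :: v`: found), step: if `out ≠ []` or `A = []`
nothing changes; else if `val (fstB A) = k w` then `out := true :: fstB (sndB A)` else
`A := sndB (sndB A)`; number of steps `(A w).length`; all iterates are not longer than
`2 * |A w| + 2`. Facts: `(fstB x).length ≤ x.length`, `(sndB x).length < x.length` for `x ≠ []`. -/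

set_option autoImplicit false

namespace Crest.Agent.WLD

open Crest.Agent.CHR Crest.Agent.WLX Crest.CountHier

/-- look-up of the key `k` with default `d`, at most `fuel` entries -/
def lkF : ℕ → W → ℕ → ℕ → ℕ
  | 0, _, _, d => d
  | f + 1, A, k, d =>
    if A = [] then d
    else if val (fstB A) = k then val (fstB (sndB A))
    else lkF f (sndB (sndB A)) k d

/-- look-up of the key `k` with default `d` -/
def lk (A : W) (k d : ℕ) : ℕ := lkF A.length A k d

/-- new entry in front -/
def upd (A : W) (k v : ℕ) : W := pairBits (Nat.bits k) (pairBits (Nat.bits v) A)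

theorem lk_nil (k d : ℕ) : lk [] k d = d := rfl

theorem fstB_length_le (z : W) : (fstB z).length ≤ z.length := by
  have h : ∀ n (z : W), z.length ≤ n → (fstB z).length ≤ z.length := by
    intro n
    induction n with
    | zero =>
      intro z hz
      have : z = [] := List.eq_nil_of_length_eq_zero (by omega)
      subst this
      simp [fstB, unpairB]
    | succ n ih =>
      intro z hz
      match z, hz with
      | [], _ => simp [fstB, unpairB]
      | [true], _ => simp [fstB, unpairB]
      | true :: b :: l, hz =>
        have h1 := ih l (by simp only [List.length_cons] at hz; omega)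
        have : fstB (true :: b :: l) = b :: fstB l := rfl
        rw [this]
        simp only [List.length_cons]
        omega
      | false :: l, _ =>
        have : fstB (false :: l) = [] := rfl
        rw [this]
        simp
  exact h z.length z le_rfl

theorem sndB_length_lt {z : W} (hz : z ≠ []) : (sndB z).length < z.length := by
  have h : ∀ n (z : W), z.length ≤ n → z ≠ [] → (sndB z).length < z.length := by
    intro n
    induction n with
    | zero =>
      intro z hz h0
      exact absurd (List.eq_nil_of_length_eq_zero (by omega)) h0
    | succ n ih =>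
      intro z hz h0
      match z, hz, h0 with
      | [], _, h0 => exact absurd rfl h0
      | [true], _, _ => simp [sndB, unpairB]
      | true :: b :: l, hz, _ =>
        have e : sndB (true :: b :: l) = sndB l := rfl
        rw [e]
        simp only [List.length_cons] at hz ⊢
        by_cases hl : l = []
        · subst hl; simp [sndB, unpairB]
        · have h1 := ih l (by omega) hl
          omega
      | false :: l, _, _ =>
        have : sndB (false :: l) = l := rfl
        rw [this]
        simp
  exact h z.length z le_rfl hz

theorem sndB_length_le (z : W) : (sndB z).length ≤ z.length := by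
  by_cases h : z = []
  · subst h; simp [sndB, unpairB]
  · exact (sndB_length_lt h).le

theorem lkF_fuel (k d : ℕ) (f : ℕ) : ∀ (f' : ℕ) (A : W), A.length ≤ f → A.length ≤ f' →
    lkF f A k d = lkF f' A k d := by
  induction f with
  | zero =>
    intro f' A h _
    have h0 : A = [] := List.eq_nil_of_length_eq_zero (by omega)
    subst h0
    cases f' with
    | zero => rfl
    | succ f' => simp [lkF]
  | succ f ih =>
    intro f' A h h'
    cases f' with
    | zero =>
      have h0 : A = [] := List.eq_nil_of_length_eq_zero (by omega)
      subst h0
      simp [lkF]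
    | succ f' =>
      by_cases h0 : A = []
      · simp [lkF, h0]
      · have h1 := sndB_length_lt h0
        have h2 := sndB_length_le (sndB A)
        simp only [lkF, h0, if_false]
        rw [ih f' (sndB (sndB A)) (by omega) (by omega)]

theorem upd_length (A : W) (k v : ℕ) :
    (upd A k v).length = 2 * (Nat.bits k).length + 2 * (Nat.bits v).length + 2 + A.length := by
  unfold upd
  rw [pairBits_length', pairBits_length']
  omega

theorem lk_upd (A : W) (k v k' d : ℕ) :
    lk (upd A k v) k' d = if k' = k then v else lk A k' d := by
  have hl := upd_length A k v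
  have hne : upd A k v ≠ [] := by
    intro h
    rw [h] at hl
    simp at hl
    omega
  unfold lk
  obtain ⟨f, hf⟩ : ∃ f, (upd A k v).length = f + 1 := ⟨(upd A k v).length - 1, by omega⟩
  rw [hf]
  simp only [lkF, hne, if_false]
  have e1 : fstB (upd A k v) = Nat.bits k := by simp [upd]
  have e2 : sndB (upd A k v) = pairBits (Nat.bits v) A := by simp [upd]
  rw [e1, e2, fstB_pairBits, sndB_pairBits, val_bits, val_bits]
  by_cases h : k' = k
  · subst h; simp
  · have h' : ¬ k = k' := fun e => h e.symm
    simp only [h, h', if_false]
    exact lkF_fuel k' d f A.length A (by omega) le_rfl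

theorem PT.upd {A : W → W} {k v : W → ℕ} (hA : PolyTime A) (hk : BN k) (hv : BN v) :
    PolyTime (fun w => upd (A w) (k w) (v w)) :=
  CHR.PT.pair hk (CHR.PT.pair hv hA)

open Classical in
/-- one step of the search with key `k`; the state is `pairBits out A` -/
def lkStep (k : ℕ) (T : W) : W :=
  if fstB T ≠ [] ∨ sndB T = [] then T
  else if val (fstB (sndB T)) = k then pairBits (true :: fstB (sndB (sndB T))) (sndB T)
  else pairBits (fstB T) (sndB (sndB (sndB T)))

theorem lkStep_fix {k : ℕ} {T : W} (h : fstB T ≠ [] ∨ sndB T = []) (n : ℕ) :
    (lkStep k)^[n] T = T := by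
  induction n with
  | zero => rfl
  | succ n ih => rw [Function.iterate_succ_apply, show lkStep k T = T by unfold lkStep; rw [if_pos h], ih]

open Classical in
theorem lkStep_spec (k d : ℕ) (n : ℕ) : ∀ A : W,
    (if fstB ((lkStep k)^[n] (pairBits [] A)) = [] then d
      else val (fstB ((lkStep k)^[n] (pairBits [] A))).tail) = lkF n A k d := by
  induction n with
  | zero => intro A; simp [lkF]
  | succ n ih =>
    intro A
    rw [Function.iterate_succ_apply]
    by_cases h0 : A = []
    · have e : lkStep k (pairBits [] A) = pairBits [] A := by
        unfold lkStep; rw [if_pos (Or.inr (by simpa using h0))]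
      rw [e, lkStep_fix (Or.inr (by simpa using h0))]
      simp [lkF, h0]
    · by_cases h1 : val (fstB A) = k
      · have e : lkStep k (pairBits [] A) = pairBits (true :: fstB (sndB A)) A := by
          unfold lkStep
          rw [if_neg (by simpa using h0)]
          simp [h1]
        rw [e, lkStep_fix (Or.inl (by simp))]
        simp [lkF, h0, h1]
      · have e : lkStep k (pairBits [] A) = pairBits [] (sndB (sndB A)) := by
          unfold lkStep
          rw [if_neg (by simpa using h0)]
          simp [h1]
        rw [e, ih]
        simp [lkF, h0, h1]

theorem lkStep_len (k : ℕ) (n : ℕ) : ∀ A : W,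
    ((lkStep k)^[n] (pairBits [] A)).length ≤ 3 * A.length + 3 := by
  induction n with
  | zero => intro A; simp only [Function.iterate_zero, id]; rw [pairBits_length']; simp; omega
  | succ n ih =>
    intro A
    rw [Function.iterate_succ_apply]
    by_cases h0 : A = []
    · have e : lkStep k (pairBits [] A) = pairBits [] A := by
        unfold lkStep; rw [if_pos (Or.inr (by simpa using h0))]
      rw [e]; exact ih A
    · have hs1 := sndB_length_le A
      have hs2 := sndB_length_le (sndB A)
      have hs3 := fstB_length_le (sndB A)
      by_cases h1 : val (fstB A) = k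
      · have e : lkStep k (pairBits [] A) = pairBits (true :: fstB (sndB A)) A := by
          unfold lkStep
          rw [if_neg (by simpa using h0)]
          simp [h1]
        rw [e, lkStep_fix (Or.inl (by simp)), pairBits_length', List.length_cons]
        omega
      · have e : lkStep k (pairBits [] A) = pairBits [] (sndB (sndB A)) := by
          unfold lkStep
          rw [if_neg (by simpa using h0)]
          simp [h1]
        rw [e]
        have := ih (sndB (sndB A))
        omega

theorem BN.lk {A : W → W} {k d : W → ℕ} (hA : PolyTime A) (hk : BN k) (hd : BN d) :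
    BN (fun w => lk (A w) (k w) (d w)) := by
  classical
  obtain ⟨q, hq⟩ := PT.lenBound hA
  have hT : PolyTime (fun z => sndB z) := PT.snd
  have hT1 : PolyTime (fun z => fstB (sndB z)) := PT.comp PT.fst PT.snd
  have hT2 : PolyTime (fun z => sndB (sndB z)) := PT.comp PT.snd PT.snd
  have hA1 : PolyTime (fun z => fstB (sndB (sndB z))) := PT.comp PT.fst hT2
  have hA2 : PolyTime (fun z => sndB (sndB (sndB z))) := PT.comp PT.snd hT2
  have hA21 : PolyTime (fun z => fstB (sndB (sndB (sndB z)))) := PT.comp PT.fst hA2
  have hA22 : PolyTime (fun z => sndB (sndB (sndB (sndB z)))) := PT.comp PT.snd hA2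
  have hc1 : UP (fun z => fstB (sndB z) ≠ [] ∨ sndB (sndB z) = []) :=
    ((UP.eqS hT1 (PT.const [])).not).or (UP.eqS hT2 (PT.const []))
  have hc2 : UP (fun z => val (fstB (sndB (sndB z))) = k (fstB z)) :=
    BN.eq (BN.ofVal hA1) hk.fst
  have hstep : PolyTime (fun z => lkStep (k (fstB z)) (sndB z)) := by
    have h := PT.iteP hc1 hT (PT.iteP hc2 (PT.pair (PT.append (PT.const [true]) hA21) hT2)
      (PT.pair hT1 hA22))
    refine PT.congr h fun z => ?_
    unfold lkStep
    split_ifs <;> rfl
  have hit : ∀ w : W, (fun T => lkStep (k (fstB (pairBits w T))) (sndB (pairBits w T))) =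
      lkStep (k w) := by
    intro w; funext T; simp
  have hfin := PT.iterS (s := fun z => lkStep (k (fstB z)) (sndB z))
    (i := fun w => pairBits [] (A w)) (S := fun w => (A w).length) hstep
    (PT.pair (PT.const []) hA) (UN.len hA) (3 * q + 3) (fun w j _ => by
      rw [hit]
      refine (lkStep_len (k w) j (A w)).trans ?_
      have h1 := hq w
      have h2 : (3 * q + 3 : Polynomial ℕ).eval w.length = 3 * q.eval w.length + 3 := by
        simp [Polynomial.eval_add, Polynomial.eval_mul]
      rw [h2]
      omega)
  have h1 := PT.comp PT.fst hfin
  have h2 : BN (fun w => if fstB ((lkStep (k w))^[(A w).length] (pairBits [] (A w))) = [] then d w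
      else val (fstB ((lkStep (k w))^[(A w).length] (pairBits [] (A w)))).tail) := by
    have h3 : PolyTime (fun w => fstB ((lkStep (k w))^[(A w).length] (pairBits [] (A w)))) := by
      refine PT.congr h1 fun w => ?_
      rw [hit]
    refine (BN.ite (UP.eqS h3 (PT.const [])) hd (BN.ofVal (PT.comp PT.tail h3))).congr fun w => ?_
    split_ifs <;> rfl
  refine h2.congr fun w => ?_
  rw [lkStep_spec]
  rfl

end Crest.Agent.WLD
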