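import Crest.Agent.WLD.BN

/-! Row 290 (B3), CHUNK R290-R-SUB: truncated subtraction in binary is polynomial-time.

PROOF IDEA. `N w = (Nat.bits (f w)).length`, `f w - g w < 2 ^ N w`. `BN.ite (BN.lt hf hg)` (value `0`
if `f w < g w`); otherwise `BN.ofBits'`: for `b ≤ a`:
`(a - b).testBit i = (a.testBit i ^^ b.testBit i) ^^ borrow`, `borrow ↔ a % 2 ^ i < b % 2 ^ i`
(`BN.lt` of two `BN.modPow` in the context `z`, `i = (sndB z).length`). For the `testBit` formula
write `(a - b) / 2 ^ i = a / 2 ^ i - b / 2 ^ i - c`. To use `BN.ofBits'` uniformly replace `g` by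
`min (f w) (g w)` (BN by `BN.ite`). -/

set_option autoImplicit false

namespace Crest.Agent.WLD

open Crest.Agent.CHR Crest.Agent.WLX Crest.CountHier

/-- binary digits of a difference -/
theorem bnSub_testBit_iff {a b : ℕ} (hab : b ≤ a) (i : ℕ) :
    (a - b).testBit i = true ↔
      (a.testBit i = true ↔ (b.testBit i = true ↔ a % 2 ^ i < b % 2 ^ i)) := by
  have hpos : 0 < 2 ^ i := by positivity
  have hA : a % 2 ^ i < 2 ^ i := Nat.mod_lt _ hpos
  have hB : b % 2 ^ i < 2 ^ i := Nat.mod_lt _ hpos
  have ea := Nat.div_add_mod a (2 ^ i)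
  have eb := Nat.div_add_mod b (2 ^ i)
  rw [Nat.testBit_eq_decide_div_mod_eq, Nat.testBit_eq_decide_div_mod_eq,
    Nat.testBit_eq_decide_div_mod_eq]
  simp only [decide_eq_true_eq]
  set A := a / 2 ^ i with hAd
  set B := b / 2 ^ i with hBd
  set r := a % 2 ^ i with hr
  set s := b % 2 ^ i with hs
  have hBA : B ≤ A := Nat.div_le_div_right hab
  by_cases hc : r < s
  · have hBA' : B < A := by
      rcases Nat.lt_or_ge B A with h | h
      · exact h
      · exfalso
        have : A = B := le_antisymm h hBA
        rw [this] at ea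
        omega
    have key : (a - b) / 2 ^ i = A - B - 1 := by
      obtain ⟨c, hcA⟩ : ∃ c, A = B + 1 + c := ⟨A - B - 1, by omega⟩
      have e1 : a - b = (2 ^ i + r - s) + 2 ^ i * c := by
        have : a = 2 ^ i * B + 2 ^ i + 2 ^ i * c + r := by
          rw [← ea, hcA]; ring
        omega
      rw [e1, Nat.add_mul_div_left _ _ hpos, Nat.div_eq_of_lt (by omega)]
      omega
    rw [key]
    simp only [hc, iff_true]
    omega
  · have key : (a - b) / 2 ^ i = A - B := by
      obtain ⟨c, hcA⟩ : ∃ c, A = B + c := ⟨A - B, by omega⟩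
      have e1 : a - b = (r - s) + 2 ^ i * c := by
        have : a = 2 ^ i * B + 2 ^ i * c + r := by
          rw [← ea, hcA]; ring
        omega
      rw [e1, Nat.add_mul_div_left _ _ hpos, Nat.div_eq_of_lt (by omega)]
      omega
    rw [key]
    simp only [hc, iff_false]
    omega

theorem BN.sub {f g : W → ℕ} (hf : BN f) (hg : BN g) : BN (fun w => f w - g w) := by
  classical
  have hm : BN (fun w => if g w ≤ f w then g w else f w) :=
    (BN.ite (BN.le hg hf) hg hf).congr fun w => by congr
  set m : W → ℕ := fun w => if g w ≤ f w then g w else f w with hmd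
  have hmle : ∀ w, m w ≤ f w := by
    intro w
    simp only [hmd]
    split_ifs with h
    · exact h
    · exact le_rfl
  have hsub : BN (fun w => f w - m w) := by
    refine BN.ofBits' (F := fun w => f w - m w) (BN.size hf) (fun w => ?_) ?_
    · have h1 := lt_two_pow_bits (f w)
      show f w - m w < _
      omega
    · have ha : UP (fun z => (f (fstB z)).testBit (sndB z).length = true) :=
        BN.testBit hf.fst UN.var
      have hb : UP (fun z => (m (fstB z)).testBit (sndB z).length = true) :=
        BN.testBit hm.fst UN.var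
      have hc : UP (fun z => f (fstB z) % 2 ^ (sndB z).length < m (fstB z) % 2 ^ (sndB z).length) :=
        BN.lt (BN.modPow hf.fst UN.var) (BN.modPow hm.fst UN.var)
      refine (ha.iff (hb.iff hc)).congr fun z => ?_
      exact (bnSub_testBit_iff (hmle _) _).symm
  refine hsub.congr fun w => ?_
  simp only [hmd]
  split_ifs with h
  · rfl
  · omega

end Crest.Agent.WLD
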