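import Crest.Agent.WLX.UNIter

/-! Row 290 (B3): a loop until a polynomial-time halting predicate holds. -/

set_option autoImplicit false

namespace Crest.Agent.WLD

open Crest.Agent.CHR Crest.Agent.WLX Crest.CountHier

/-- Loop `x := s x` until `h x`; the number of rounds is at most `N` if `h (s^[N] x)`. -/
theorem whileM {s : W → W} {h : W → Prop} (hs : PolyTime s) (hh : UP h)
    (hfix : ∀ y, h y → s y = y) :
    ∃ (R : Prog) (r : Polynomial ℕ), ∀ (x : W) (N M : ℕ), h (s^[N] x) →
      (∀ k ≤ N, (s^[k] x).length ≤ M) →
        ∃ t ≤ (N + 1) * r.eval M, Ev R (ini x) t (ini (s^[N] x)) := by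
  classical
  -- the body: step and flag
  have hF : PolyTime (fun y : W => [decide (h (s y))] ++ s y) :=
    PT.append (PTP.comp hh hs) hs
  have hG : PolyTime (fun y : W => [decide (h y)] ++ y) := PT.append hh PT.id
  obtain ⟨P, p, hP⟩ := hF
  obtain ⟨Q, q, hQ⟩ := hG
  set B := max P.maxReg Q.maxReg with hB
  -- remove the flag from register 0; if it is `true` (halted) clear the control register
  set chk : Prog := .case 0 .skip (.pop 0) (.pop 0 ;; .pop (B + 1)) with hchk
  have hchk_t : ∀ y : W, Ev chk (st B (true :: y) [true] [] []) 3 (st B y [] [] []) := by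
    intro y
    refine Ev.case_true (l := y) (by simp) ?_
    have e1 : Ev (.pop 0) (st B (true :: y) [true] [] []) 1 (st B y [true] [] []) := by
      simpa using Ev.pop 0 (st B (true :: y) [true] [] [])
    have e2 : Ev (.pop (B + 1)) (st B y [true] [] []) 1 (st B y [] [] []) := by
      simpa using Ev.pop (B + 1) (st B y [true] [] [])
    exact Ev.seq e1 e2
  have hchk_f : ∀ y : W, Ev chk (st B (false :: y) [true] [] []) 2 (st B y [true] [] []) := by
    intro y
    refine Ev.case_false (l := y) (by simp) ?_
    simpa using Ev.pop 0 (st B (false :: y) [true] [] [])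
  -- the loop from a non-halted state
  have hloop : ∀ (N : ℕ) (x : W) (M : ℕ), h (s^[N] x) → ¬ h x →
      (∀ k ≤ N, (s^[k] x).length ≤ M) →
      ∃ t ≤ N * (p.eval M + 5) + 1,
        Ev (.loop (B + 1) (P ;; chk)) (st B x [true] [] []) t (st B (s^[N] x) [] [] []) := by
    intro N
    induction N with
    | zero => intro x M h1 h2 _; exact absurd h1 h2
    | succ N ih =>
      intro x M h1 h2 hM
      obtain ⟨t1, ht1, e1⟩ := hP x
      have hx : x.length ≤ M := by simpa using hM 0 (by omega)
      have ht1' : t1 ≤ p.eval M := ht1.trans (polyEval_mono p hx)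
      have e1' := e1.frame_st (le_max_left _ _ : P.maxReg ≤ B) [true] [] []
      by_cases hy : h (s x)
      · -- halted after this step
        have hN : s^[N + 1] x = s x := by
          rw [Function.iterate_succ_apply]
          have : ∀ k, s^[k] (s x) = s x := by
            intro k
            induction k with
            | zero => rfl
            | succ k ihk => rw [Function.iterate_succ_apply, hfix _ hy, ihk]
          exact this N
        have e2 : Ev chk (st B ([decide (h (s x))] ++ s x) [true] [] []) 3
            (st B (s x) [] [] []) := by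
          have : ([decide (h (s x))] ++ s x : W) = true :: s x := by simp [hy]
          rw [this]; exact hchk_t _
        have e3 : Ev (.loop (B + 1) (P ;; chk)) (st B (s x) [] [] []) 1
            (st B (s x) [] [] []) := Ev.loop_done (by simp)
        refine ⟨(t1 + 3) + 1 + 1, ?_, ?_⟩
        · have : (N + 1) * (p.eval M + 5) = N * (p.eval M + 5) + (p.eval M + 5) := by ring
          omega
        · rw [hN]
          exact Ev.loop_step (t := t1 + 3) (t' := 1) (by simp) (Ev.seq e1' e2) e3
      · obtain ⟨t2, ht2, e2⟩ := ih (s x) M (by rwa [Function.iterate_succ_apply] at h1) hy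
          (fun k hk => by
            have := hM (k + 1) (by omega)
            rwa [Function.iterate_succ_apply] at this)
        have e3 : Ev chk (st B ([decide (h (s x))] ++ s x) [true] [] []) 2
            (st B (s x) [true] [] []) := by
          have : ([decide (h (s x))] ++ s x : W) = false :: s x := by simp [hy]
          rw [this]; exact hchk_f _
        refine ⟨(t1 + 2) + t2 + 1, ?_, ?_⟩
        · have : (N + 1) * (p.eval M + 5) = N * (p.eval M + 5) + (p.eval M + 5) := by ring
          omega
        · rw [Function.iterate_succ_apply]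
          exact Ev.loop_step (by simp) (Ev.seq e1' e3) e2
  refine ⟨.push (B + 1) true ;; (Q ;; chk) ;; .loop (B + 1) (P ;; chk), p + q + 10,
    fun x N M hN hM => ?_⟩
  obtain ⟨t1, ht1, e1⟩ := hQ x
  have hx : x.length ≤ M := by simpa using hM 0 (by omega)
  have ht1' : t1 ≤ q.eval M := ht1.trans (polyEval_mono q hx)
  have e0 : Ev (.push (B + 1) true) (st B x [] [] []) 1 (st B x [true] [] []) := by
    simpa using Ev.push (B + 1) true (st B x [] [] [])
  have e1' := e1.frame_st (le_max_right _ _ : Q.maxReg ≤ B) [true] [] []
  rw [← st_ini B x, ← st_ini B (s^[N] x)]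
  by_cases hxh : h x
  · have hNx : s^[N] x = x := by
      clear hN hM
      induction N with
      | zero => rfl
      | succ k ihk => rw [Function.iterate_succ_apply, hfix _ hxh, ihk]
    have e2 : Ev chk (st B ([decide (h x)] ++ x) [true] [] []) 3 (st B x [] [] []) := by
      have : ([decide (h x)] ++ x : W) = true :: x := by simp [hxh]
      rw [this]; exact hchk_t _
    have e3 : Ev (.loop (B + 1) (P ;; chk)) (st B x [] [] []) 1 (st B x [] [] []) :=
      Ev.loop_done (by simp)
    refine ⟨1 + ((t1 + 3) + 1), ?_, ?_⟩
    · simp only [Polynomial.eval_add, Polynomial.eval_ofNat]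
      nlinarith [Nat.zero_le (N * (p.eval M + q.eval M + 10))]
    · rw [hNx]
      exact Ev.seq e0 (Ev.seq (Ev.seq e1' e2) e3)
  · obtain ⟨t2, ht2, e2⟩ := hloop N x M hN hxh hM
    have e3 : Ev chk (st B ([decide (h x)] ++ x) [true] [] []) 2 (st B x [true] [] []) := by
      have : ([decide (h x)] ++ x : W) = false :: x := by simp [hxh]
      rw [this]; exact hchk_f _
    refine ⟨1 + ((t1 + 2) + t2), ?_, ?_⟩
    · simp only [Polynomial.eval_add, Polynomial.eval_ofNat]
      have : N * (p.eval M + 5) ≤ N * (p.eval M + q.eval M + 10) :=
        Nat.mul_le_mul_left _ (by omega)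
      have h3 : (N + 1) * (p.eval M + q.eval M + 10) =
        N * (p.eval M + q.eval M + 10) + (p.eval M + q.eval M + 10) := by ring
      omega
    · exact Ev.seq e0 (Ev.seq (Ev.seq e1' e3) e2)

/-- pushing a constant string -/
def pushAll : W → Prog
  | [] => .skip
  | b :: c => pushAll c ;; .push 0 b

theorem ev_pushAll' (c x : W) : Ev (pushAll c) (ini x) (c.length + 1) (ini (c ++ x)) := by
  induction c with
  | nil => exact Ev.skip _
  | cons b c ih =>
    have h := Ev.push 0 b (ini (c ++ x))
    have e : Function.update (ini (c ++ x)) 0 (b :: ini (c ++ x) 0) = ini (b :: (c ++ x)) := by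
      funext i
      by_cases hi : i = 0
      · subst hi; simp [ini]
      · simp [ini, hi]
    rw [e] at h
    exact Ev.seq ih h

end Crest.Agent.WLD
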