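import Crest.Agent.WLD.BNDiv
import Crest.Agent.WLD.BNBit
import Crest.Agent.WLD.BNLk
import Crest.Agent.WLD.While
import Crest.Prelude.Def_WordRAM

/-! Row 290 (B3): the universal word-RAM interpreter, definitions and polynomial time. -/

set_option autoImplicit false

namespace Crest.Agent.WLD

open Crest.Agent.CHR Crest.Agent.WLX Crest.CountHier

/-- classical choice between two values -/
noncomputable def cif {α : Type} (p : Prop) (a b : α) : α := @ite α p (Classical.propDecidable p) a b

theorem cif_pos {α : Type} {p : Prop} (h : p) (a b : α) : cif p a b = a := by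
  classical
  unfold cif; exact if_pos h

theorem cif_neg {α : Type} {p : Prop} (h : ¬ p) (a b : α) : cif p a b = b := by
  classical
  unfold cif; exact if_neg h

theorem BN.cif {p : W → Prop} {f g : W → ℕ} (hp : UP p) (hf : BN f) (hg : BN g) :
    BN (fun w => cif (p w) (f w) (g w)) := BN.ite hp hf hg

theorem PT_cif {p : W → Prop} {f g : W → W} (hp : UP p) (hf : PolyTime f) (hg : PolyTime g) :
    PolyTime (fun w => cif (p w) (f w) (g w)) := PT.iteP hp hf hg

/-! ### state -/

/-- state: code, word length (unary), input, program counter (unary), halting flag, registers,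
memory writes -/
def mk (C Wu X PC H R M : W) : W :=
  pairBits C (pairBits Wu (pairBits X (pairBits PC (pairBits H (pairBits R M)))))

def gC (z : W) : W := fstB z
def gW (z : W) : W := fstB (sndB z)
def gX (z : W) : W := fstB (sndB (sndB z))
def gP (z : W) : W := fstB (sndB (sndB (sndB z)))
def gH (z : W) : W := fstB (sndB (sndB (sndB (sndB z))))
def gR (z : W) : W := fstB (sndB (sndB (sndB (sndB (sndB z)))))
def gM (z : W) : W := sndB (sndB (sndB (sndB (sndB (sndB z)))))

section
variable (C Wu X PC H R M : W)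
@[simp] theorem gC_mk : gC (mk C Wu X PC H R M) = C := by simp [gC, mk]
@[simp] theorem gW_mk : gW (mk C Wu X PC H R M) = Wu := by simp [gW, mk]
@[simp] theorem gX_mk : gX (mk C Wu X PC H R M) = X := by simp [gX, mk]
@[simp] theorem gP_mk : gP (mk C Wu X PC H R M) = PC := by simp [gP, mk]
@[simp] theorem gH_mk : gH (mk C Wu X PC H R M) = H := by simp [gH, mk]
@[simp] theorem gR_mk : gR (mk C Wu X PC H R M) = R := by simp [gR, mk]
@[simp] theorem gM_mk : gM (mk C Wu X PC H R M) = M := by simp [gM, mk]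
end

theorem PT_gC : PolyTime gC := PT.fst
theorem PT_gW : PolyTime gW := PT.congr (PT.comp PT.fst PT.snd) fun _ => rfl
theorem PT_gX : PolyTime gX := PT.congr (PT.comp PT.fst (PT.comp PT.snd PT.snd)) fun _ => rfl
theorem PT_gP : PolyTime gP :=
  PT.congr (PT.comp PT.fst (PT.comp PT.snd (PT.comp PT.snd PT.snd))) fun _ => rfl
theorem PT_gH : PolyTime gH :=
  PT.congr (PT.comp PT.fst (PT.comp PT.snd (PT.comp PT.snd (PT.comp PT.snd PT.snd))))
    fun _ => rfl
theorem PT_gR : PolyTime gR :=
  PT.congr (PT.comp PT.fst (PT.comp PT.snd (PT.comp PT.snd (PT.comp PT.snd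
    (PT.comp PT.snd PT.snd))))) fun _ => rfl
theorem PT_gM : PolyTime gM :=
  PT.congr (PT.comp PT.snd (PT.comp PT.snd (PT.comp PT.snd (PT.comp PT.snd
    (PT.comp PT.snd PT.snd))))) fun _ => rfl

theorem PT_mk {C Wu X PC H R M : W → W} (h1 : PolyTime C) (h2 : PolyTime Wu) (h3 : PolyTime X)
    (h4 : PolyTime PC) (h5 : PolyTime H) (h6 : PolyTime R) (h7 : PolyTime M) :
    PolyTime (fun z => mk (C z) (Wu z) (X z) (PC z) (H z) (R z) (M z)) :=
  PT.pair h1 (PT.pair h2 (PT.pair h3 (PT.pair h4 (PT.pair h5 (PT.pair h6 h7)))))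

/-! ### instructions -/

/-- the rest of the code from the program counter on -/
def insL (z : W) : W := sndB^[(gP z).length] (gC z)

theorem sndB_length_le (l : W) : (sndB l).length ≤ l.length := by
  induction l using unpairB.induct with
  | case1 b l ih =>
    have : sndB (true :: b :: l) = sndB l := rfl
    rw [this]; simp only [List.length_cons]; omega
  | case2 l =>
    have : sndB (false :: l) = l := rfl
    rw [this]; simp
  | case3 l h1 h2 =>
    have : sndB l = [] := by
      unfold sndB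
      rw [unpairB]
      · exact h1
      · exact h2
    rw [this]; simp

theorem fstB_length_le (l : W) : (fstB l).length ≤ l.length := by
  induction l using unpairB.induct with
  | case1 b l ih =>
    have : fstB (true :: b :: l) = b :: fstB l := rfl
    rw [this]; simp only [List.length_cons]; omega
  | case2 l =>
    have : fstB (false :: l) = [] := rfl
    rw [this]; simp
  | case3 l h1 h2 =>
    have : fstB l = [] := by
      unfold fstB
      rw [unpairB]
      · exact h1
      · exact h2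
    rw [this]; simp

theorem PT_insL : PolyTime insL := by
  have hs : PolyTime (fun y : W => sndB (sndB y)) := PT.comp PT.snd PT.snd
  have h := PT.iterS (S := fun z => (gP z).length) hs PT_gC (UN.len PT_gP) (Polynomial.X) (by
    intro w k _
    have h1 : (fun T => sndB (sndB (pairBits w T))) = sndB := by
      funext T; simp
    rw [h1]
    have h2 : ∀ k x, (sndB^[k] x).length ≤ x.length := by
      intro k
      induction k with
      | zero => intro x; exact le_rfl
      | succ k ih => intro x; rw [Function.iterate_succ_apply]; exact (ih _).trans (sndB_length_le x)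
    rw [Polynomial.eval_X]
    exact (h2 k _).trans (fstB_length_le w))
  refine PT.congr h fun w => ?_
  have h1 : (fun T => sndB (sndB (pairBits w T))) = sndB := by
    funext T; simp
  rw [h1]; rfl

def insI (z : W) : W := fstB (insL z)
theorem PT_insI : PolyTime insI := PT.congr (PT.comp PT.fst PT_insL) fun _ => rfl

def fOp (z : W) : ℕ := (fstB (insI z)).length
def fD (z : W) : ℕ := (fstB (sndB (insI z))).length
def fA (z : W) : ℕ := (fstB (sndB (sndB (insI z)))).length
def fB (z : W) : ℕ := (fstB (sndB (sndB (sndB (insI z))))).length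
def fV (z : W) : ℕ := val (fstB (sndB (sndB (sndB (sndB (insI z))))))
def fL (z : W) : W := sndB (sndB (sndB (sndB (sndB (insI z)))))

theorem UN_fOp : UN fOp := UN.len (PT.comp PT.fst PT_insI)
theorem UN_fD : UN fD := UN.len (PT.comp PT.fst (PT.comp PT.snd PT_insI))
theorem UN_fA : UN fA := UN.len (PT.comp PT.fst (PT.comp PT.snd (PT.comp PT.snd PT_insI)))
theorem UN_fB : UN fB :=
  UN.len (PT.comp PT.fst (PT.comp PT.snd (PT.comp PT.snd (PT.comp PT.snd PT_insI))))
theorem BN_fV : BN fV :=
  BN.ofVal (PT.comp PT.fst (PT.comp PT.snd (PT.comp PT.snd (PT.comp PT.snd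
    (PT.comp PT.snd PT_insI)))))
theorem PT_fL : PolyTime fL :=
  PT.congr (PT.comp PT.snd (PT.comp PT.snd (PT.comp PT.snd (PT.comp PT.snd
    (PT.comp PT.snd PT_insI))))) fun _ => rfl

/-! ### values -/

def wN (z : W) : ℕ := (gW z).length
theorem UN_wN : UN wN := UN.len PT_gW

/-- contents of the operand registers -/
def va (z : W) : ℕ := lk (gR z) (fA z) 0
def vb (z : W) : ℕ := lk (gR z) (fB z) 0

theorem BN_va : BN va := BN.lk PT_gR (BN.ofUN UN_fA) (BN.const 0)
theorem BN_vb : BN vb := BN.lk PT_gR (BN.ofUN UN_fB) (BN.const 0)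

/-- initial content of the memory cell `a` -/
noncomputable def dflt (X : W) (w a : ℕ) : ℕ :=
  cif ((a < X.length ∧ X.getD (Min.min a X.length) false = true) ∧ 0 < w) 1 0

theorem BN.dflt {X : W → W} {w a : W → ℕ} (hX : PolyTime X) (hw : UN w) (ha : BN a) :
    BN (fun z => dflt (X z) (w z) (a z)) := by
  have h1 : UP (fun z => (a z < (X z).length ∧
      (X z).getD (Min.min (a z) (X z).length) false = true) ∧ 0 < w z) :=
    ((BN.lt ha (BN.ofUN (UN.len hX))).and (UP.bit hX (UN.minBN ha (UN.len hX)))).and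
      (UP.lt (UN.const 0) hw)
  exact BN.cif h1 (BN.const 1) (BN.const 0)

/-- content of the memory cell `a` -/
noncomputable def rdM (z : W) (a : ℕ) : ℕ := lk (gM z) a (dflt (gX z) (wN z) a)

theorem BN.rdM {a : W → ℕ} (ha : BN a) : BN (fun z => rdM z (a z)) :=
  BN.lk PT_gM ha (BN.dflt PT_gX UN_wN ha)

/-- left shift -/
noncomputable def shlN (w a b : ℕ) : ℕ := cif (b < w) ((a * 2 ^ (Min.min b w)) % 2 ^ w) 0
/-- right shift -/
noncomputable def shrN (w a b : ℕ) : ℕ := cif (b < w) (a / 2 ^ (Min.min b w)) 0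

theorem BN_shl : BN (fun z => shlN (wN z) (va z) (vb z)) :=
  BN.cif (BN.lt BN_vb (BN.ofUN UN_wN))
    (BN.modPow (BN.mulPow BN_va (UN.minBN BN_vb UN_wN)) UN_wN) (BN.const 0)

theorem BN_shr : BN (fun z => shrN (wN z) (va z) (vb z)) :=
  BN.cif (BN.lt BN_vb (BN.ofUN UN_wN))
    (BN.divPow BN_va (UN.minBN BN_vb UN_wN)) (BN.const 0)

/-- the value written to the destination register -/
noncomputable def resN (o w v a b ld : ℕ) : ℕ :=
  cif (o = 0) (v % 2 ^ w) <|
  cif (o = 1) a <|
  cif (o = 2) ((a + b) % 2 ^ w) <|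
  cif (o = 3) (a - b) <|
  cif (o = 4) ((a * b) % 2 ^ w) <|
  cif (o = 5) (a / b) <|
  cif (o = 6) (a % b) <|
  cif (o = 7) (a &&& b) <|
  cif (o = 8) (a ||| b) <|
  cif (o = 9) (a ^^^ b) <|
  cif (o = 10) (shlN w a b) <|
  cif (o = 11) (shrN w a b) <|
  cif (o = 12) ld 0

noncomputable def res (z : W) : ℕ := resN (fOp z) (wN z) (fV z) (va z) (vb z) (rdM z (va z))

theorem UP_op (c : ℕ) : UP (fun z => fOp z = c) := UP.eqN UN_fOp (UN.const c)

theorem BN_res : BN res := by
  have h0 := BN.modPow BN_fV UN_wN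
  have h2 := BN.modPow (BN.add BN_va BN_vb) UN_wN
  have h3 := BN.sub BN_va BN_vb
  have h4 := BN.modPow (BN.mul BN_va BN_vb) UN_wN
  have h5 := BN.div BN_va BN_vb
  have h6 := BN.mod BN_va BN_vb
  have h7 := BN.land BN_va BN_vb
  have h8 := BN.lor BN_va BN_vb
  have h9 := BN.lxor BN_va BN_vb
  have h12 := BN.rdM BN_va
  have k12 := BN.cif (UP_op 12) h12 (BN.const 0)
  have k11 := BN.cif (UP_op 11) BN_shr k12
  have k10 := BN.cif (UP_op 10) BN_shl k11
  have k9 := BN.cif (UP_op 9) h9 k10
  have k8 := BN.cif (UP_op 8) h8 k9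
  have k7 := BN.cif (UP_op 7) h7 k8
  have k6 := BN.cif (UP_op 6) h6 k7
  have k5 := BN.cif (UP_op 5) h5 k6
  have k4 := BN.cif (UP_op 4) h4 k5
  have k3 := BN.cif (UP_op 3) h3 k4
  have k2 := BN.cif (UP_op 2) h2 k3
  have k1 := BN.cif (UP_op 1) BN_va k2
  exact BN.cif (UP_op 0) h0 k1

/-! ### the step -/

/-- the instruction writes a register -/
def isW (z : W) : Prop := fOp z ≤ 12 ∨ fOp z = 18

theorem UP_isW : UP isW := (UP.le UN_fOp (UN.const 12)).or (UP_op 18)

noncomputable def nR (z : W) : W := cif (isW z) (upd (gR z) (fD z) (res z)) (gR z)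
noncomputable def nM (z : W) : W := cif (fOp z = 13) (upd (gM z) (vb z) (va z)) (gM z)
/-- a jump is taken -/
def isJ (z : W) : Prop :=
  fOp z = 14 ∨ (fOp z = 15 ∧ va z = 0) ∨ (fOp z = 16 ∧ va z = vb z) ∨ (fOp z = 17 ∧ va z < vb z)
noncomputable def nP (z : W) : W :=
  cif (isJ z) (fL z) (cif (fOp z = 19) (gP z) (gP z ++ [true]))
noncomputable def nH (z : W) : W := cif (fOp z = 19) [true] []

theorem UP_isJ : UP isJ :=
  (UP_op 14).or (((UP_op 15).and (BN.eq BN_va (BN.const 0))).or
    (((UP_op 16).and (BN.eq BN_va BN_vb)).or ((UP_op 17).and (BN.lt BN_va BN_vb))))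

/-- one step of the interpreter -/
noncomputable def stepU (z : W) : W :=
  cif (gH z ≠ []) z <|
  cif (insL z = []) (mk (gC z) (gW z) (gX z) (gP z) [true] (gR z) (gM z))
    (mk (gC z) (gW z) (gX z) (nP z) (nH z) (nR z) (nM z))

theorem PT_nR : PolyTime nR :=
  PT.congr (PT_cif UP_isW (PT.upd PT_gR (BN.ofUN UN_fD) BN_res) PT_gR) fun _ => rfl
theorem PT_nM : PolyTime nM :=
  PT.congr (PT_cif (UP_op 13) (PT.upd PT_gM BN_vb BN_va) PT_gM) fun _ => rfl
theorem PT_nP : PolyTime nP :=
  PT.congr (PT_cif UP_isJ PT_fL (PT_cif (UP_op 19) PT_gP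
    (PT.append PT_gP (PT.const [true])))) fun _ => rfl
theorem PT_nH : PolyTime nH :=
  PT.congr (PT_cif (UP_op 19) (PT.const [true]) (PT.const [])) fun _ => rfl

theorem PT_stepU : PolyTime stepU := by
  have h1 : UP (fun z : W => gH z ≠ []) := (UP.eqS PT_gH (PT.const [])).not
  have h2 : UP (fun z : W => insL z = []) := UP.eqS PT_insL (PT.const [])
  have h3 := PT_mk PT_gC PT_gW PT_gX PT_gP (PT.const [true]) PT_gR PT_gM
  have h4 := PT_mk PT_gC PT_gW PT_gX PT_nP PT_nH PT_nR PT_nM
  exact PT.congr (PT_cif h1 PT.id (PT_cif h2 h3 h4)) fun _ => rfl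

end Crest.Agent.WLD
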